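import Vale.Agent.P354NU.Tool

/-! The numbers of the chart: the bottom, the times, the height of the slices. -/

open scoped ContDiff
open Set Filter Topology

noncomputable section

namespace Vale.Agent.P354NU

open Vale.Agent.P354n (R4)
open Vale.Agent.P354I (rm rp)
open Vale.Agent.P354R (Del)
open Vale.Agent.P354XG (E6)
open Vale.Agent.P354XD (pj)
open Vale.Agent.P354XE (rd ka En)
open Vale.Agent.P354XA (hor)
open Vale.Agent.P354XV (Sw th0)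
open Vale.Agent.P354YT
open Vale.Agent.P354YO (IsTh)
open Vale.Agent.P354CQ (Nrm)
open Vale.Agent.P354RN (shr)
open Vale.Agent.P354MG (lo Rg)
open Vale.Agent.P354Z
open Real (smoothTransition)

/-- The numbers. Here t is the ingoing time, t - A r the time of the estimates, t - H r the time of
the slices, and u = t - A r + 4 M^2 / r the straight time. -/
structure Nums (z : Z1) (a : C1) (A B H : ℝ → ℝ) (k ti' ti tw cH us : ℝ) : Prop where
  th : IsTh z.M z.M z.a A B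
  sA : ContDiff ℝ ∞ A
  sB : ContDiff ℝ ∞ B
  nrm : Nrm z.M z.a k A
  B0 : B z.R1 = 0
  hk : k = tb z.M z.a (z.R1 + 3) - 2
  del : a.del = z.del
  r1 : rm z.M z.a < a.r1 ∧ a.r1 < z.r1 ∧ z.r1 < a.r0 ∧ z.r1 + 1 ≤ z.R1 ∧ 10 * z.M + 10 ≤ z.R1
  ok : ∀ (b : C2) (c : C3) (d : C4), 1 ≤ b.c0 → (∀ ρ, 1 ≤ b.C ρ) → 10 * z.R1 ≤ c.R2 →
    10 * c.R2 ≤ c.Rs → 0 < d.cw → d.cw ≤ 1 → 1 ≤ d.B → (cs z a b c d).Ok
  θ : ∀ Rs Rb, z.θ ≤ th0 (z.pm Rs Rb) ∧ 3 / 2 * z.θ1 ≤ th0 (z.pm Rs Rb)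
  en : ∀ t r, a.bt r - 3 / 2 ≤ t - A r → 3 / 2 * z.θ1 < Real.exp (ka z.M z.a * t) ∧
    (rp z.M z.a < r → tb z.M z.a r + 1 / 8 ≤ t)
  cov : ∀ t r, 0 ≤ r → bl z r + z.del * r ≤ t → a.bt r + 1 ≤ t - A r
  big : 4 * z.R1 + 6 ≤ a.t1
  num : ∀ r ∈ Icc a.r1 (a.t1 + 6), a.bt r + 7 ≤ tw - A r ∧ tw - A r + 7 ≤ a.t1
  lay : ∀ t r, z.R1 + 3 ≤ r → t - A r + 4 * z.M ^ 2 / r + r ≤ z.del * r →
    t < bl z r + 2 * (z.del * r)
  low : ∀ t r, a.r1 ≤ r → t ≤ bl z r + 3 * (z.del * r) → t - A r + 1 ≤ a.t1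
  out : ∀ t r, a.t1 ≤ r → t ≤ tw + 6 → t - A r + 4 * z.M ^ 2 / r ≤ -(2 * z.R1) - 1
  sH : ContDiff ℝ ∞ H
  H0 : ∀ r ≤ z.R1, H r = 0
  H2 : ∀ r ∈ Icc z.R1 (z.R1 + 1), |H r| ≤ 2
  Hm : Monotone H
  Hd : ∀ r, deriv H r = smoothTransition (r - z.R1) * deriv A r
  cH0 : 0 ≤ cH
  hcH : ∀ r, a.r1 ≤ r → |H r - A r + 4 * z.M ^ 2 / r| ≤ cH
  rg : ∀ Rs Lv t, z.R1 + 1 ≤ Rs → IsOpen Lv → IsLowerSet Lv →
    Rg z.r1 z.R1 Rs t (Dq z H t Rs Lv)
  hti' : ti' = a.t1 + 4 * z.M ^ 2 / a.r1 + 1 + cH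
  hti : ti = ti' + cH + 3
  bb : ∀ r, a.r1 ≤ r → a.bt r + 4 * z.M ^ 2 / r + 2 ≤ a.t1 + 4 * z.M ^ 2 / a.r1
  us1 : us - 1 / 16 = -(z.R1 + 9 / 4) - tb z.M z.a (z.R1 + 9 / 4) + k + 1 / 16
  us2 : us + 1 / 16 ≤ -(z.R1 + 2) - tb z.M z.a (z.R1 + 2) + k
  us3 : -(2 * z.R1) < us - 1 ∧ us < -z.R1
  bbl : ∀ r, z.R1 ≤ r → -r ≤ a.bt r + 4 * z.M ^ 2 / r
  bbr : ∀ r, z.R1 + 5 / 2 ≤ r → a.bt r + 4 * z.M ^ 2 / r ≤ -r + 1 / 8
  hA : ∀ r ∈ Icc a.r1 (z.R1 + 3), |A r| ≤ cH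

/-- NUM: the numbers exist for large R1. -/
theorem num : Lg fun z => ∃ a A B H k ti' ti tw cH us, Nums z a A B H k ti' ti tw cH us := by
  intro M a r1 θ θ1 δ
  by_cases g : |a| < M ∧ 0 < δ
  swap
  · exact ⟨0, fun R1 _ κ o => (g ⟨(o.ok _ le_rfl _ le_rfl).1.1.sub,
      (o.ok _ le_rfl _ le_rfl).1.1.del.1⟩).elim⟩
  obtain ⟨h, d0⟩ := g
  obtain ⟨h0, m0, m1, m2, k0, -⟩ := hor h
  obtain ⟨ρ, ρ1, ρ2⟩ : ∃ ρ, 3 / δ ≤ ρ ∧ rp M a + 1 ≤ ρ := ⟨max _ _, le_max_left _ _, le_max_right _ _⟩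
  have tt := (P354YA.tb_top h).comp (tendsto_atTop_add_const_right atTop (-(1 / 2)) tendsto_id)
  obtain ⟨Rm, hR⟩ := eventually_atTop.1 ((eventually_ge_atTop (ρ + 1)).and
    ((eventually_ge_atTop (2 * M + 2 * M / δ)).and ((tt.eventually_ge_atTop
      (tb M a (ρ + 1) + 4)).and (tt.eventually_ge_atTop (Real.log (3 / 2 * θ1) / ka M a + 4)))))
  refine ⟨Rm, fun R hRm κ o => ?_⟩
  obtain ⟨L1, L2, L3, L4⟩ := hR R hRm
  simp only [Function.comp, id, ← sub_eq_add_neg] at L3 L4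
  obtain ⟨z, hz⟩ : ∃ z : Z1, z = ⟨M, a, r1, θ, θ1, δ, R, κ⟩ := ⟨_, rfl⟩
  obtain ⟨⟨q, R10⟩, -, -⟩ := o.ok _ le_rfl _ le_rfl
  have R10' : 10 * M + 10 ≤ R := R10
  have d1 : δ ≤ 1 / 10 := q.del.2
  have s1 : rm M a < r1 ∧ r1 < rp M a := q.r1
  have θ0 : 0 < θ ∧ θ ≤ θ1 := o.θ
  have dρ : 3 ≤ δ * ρ := (div_le_iff₀' d0).1 ρ1
  have lip : ∀ x y, R ≤ x → x ≤ y → tb M a y - tb M a x ≤ δ * (y - x) := fun x y =>
    tb_lip h (by linarith) fun r hr => qm_small h d0 (by linarith) (by linarith)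
  have mon : ∀ x y, rp M a < x → x ≤ y → tb M a x ≤ tb M a y := fun x y hx e =>
    q.tb_mono hx (hx.trans_le e) e
  obtain ⟨b, hb⟩ : ∃ b, b = bl z := ⟨_, rfl⟩
  have b0 : ContDiff ℝ ∞ b := hb ▸ hz ▸ q.be_cd
  have b1 : Monotone b := hb ▸ hz ▸ q.be_mono
  have b2 : ∀ r, R + 3 ≤ r → b r = tb M a r := fun r hr =>
    hb ▸ hz ▸ q.be_far (show R + 2 + 1 ≤ r by linarith)
  have b3 : ∀ r, rp M a < r → tb M a r ≤ b r := fun r hr => hb ▸ hz ▸ q.be_ge hr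
  have b4 : ∀ r, tb M a (R + 3) - 1 / 10 ≤ b r := fun r => by
    have e : tb M a (R + 3) - 1 / 10 ≤ b (R + 2) := by
      linarith [lip (R + 2) (R + 3) (by linarith) (by linarith), b3 (R + 2) (by linarith)]
    rcases le_total r (R + 2) with k | k
    · exact e.trans (hb ▸ hz ▸ (q.be_near k).ge)
    · exact e.trans (b1 k)
  have b5 : ∀ r, r ≤ R + 3 → b r ≤ tb M a (R + 3) := fun r hr => (b1 hr).trans_eq (b2 _ le_rfl)
  obtain ⟨T, hT⟩ : ∃ T, T = tb M a (R + 3) := ⟨_, rfl⟩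
  have T1 : tb M a (R - 1 / 2) ≤ T := hT ▸ mon _ _ (by linarith) (by linarith)
  obtain ⟨A, B, th, sA, sB, nr, B0⟩ := ex_A h (T - 2) R
  obtain ⟨H, sH, H0, Hm, H2, Hd, Hc⟩ := ex_H h (show 10 * M ≤ R by linarith) th sA
  obtain ⟨lb, hl⟩ : ∃ lb : ℝ → ℝ, lb = fun r =>
    2 * b r - T + 2 - 3 * (1 - smoothTransition (r - ρ)) := ⟨_, rfl⟩
  have l0 : ContDiff ℝ ∞ lb := hl ▸ (((contDiff_const.mul b0).sub contDiff_const).add
    contDiff_const).sub (contDiff_const.mul (contDiff_const.sub (st_sub ρ)))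
  have l1 : ∀ r, lb r = 2 * b r - T + 2 - 3 * (1 - smoothTransition (r - ρ)) := fun r => by rw [hl]
  have l2 : ∀ r, ρ + 1 ≤ r → lb r = 2 * b r - T + 2 := fun r hr => by
    rw [l1, smoothTransition.one_of_one_le (by linarith)]; ring
  have l3 : Monotone lb := fun x y e => by
    rw [l1, l1]
    linarith [b1 e, smoothTransition.monotone (sub_le_sub_right e ρ)]
  have fA : ∀ r, R + 3 ≤ r → A r = 4 * M ^ 2 / r + r + 2 * tb M a r - (T - 2) := fun r hr =>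
    nr r (by linarith)
  have p4 : ∀ r, 0 < r → 0 ≤ 4 * M ^ 2 / r := fun r hr => by positivity
  obtain ⟨S, hS⟩ := (isCompact_Icc (a := 0) (b := R + 3)).bddAbove_image
    (f := fun r => |A r| + |H r| + |lb r| + |b r|) (by
      have := sA.continuous; have := sH.continuous; have := l0.continuous; have := b0.continuous
      fun_prop)
  have bS : ∀ r, 0 ≤ r → r ≤ R + 3 → |A r| + |H r| + |lb r| + |b r| ≤ S := fun r x y =>
    hS ⟨r, ⟨x, y⟩, rfl⟩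
  have bA : ∀ r, 0 ≤ r → r ≤ R + 3 → -A r ≤ S ∧ lb r - A r ≤ S ∧ b r - A r ≤ S ∧
      |H r - A r| ≤ S := fun r x y => by
    have := bS r x y
    have := abs_sub (H r) (A r)
    refine ⟨?_, ?_, ?_, ?_⟩ <;> linarith [neg_abs_le (A r), abs_nonneg (A r), abs_nonneg (H r),
      abs_nonneg (lb r), abs_nonneg (b r), le_abs_self (lb r), le_abs_self (b r)]
  have TS : |T| ≤ S := by
    have := bS (R + 3) (by linarith) le_rfl
    rw [b2 _ le_rfl, ← hT] at this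
    linarith [abs_nonneg (A (R + 3)), abs_nonneg (H (R + 3)), abs_nonneg (lb (R + 3))]
  have S0 := (abs_nonneg T).trans TS
  rw [abs_le] at TS
  obtain ⟨t1, ht⟩ : ∃ t1, t1 = 4 * R + 3 * S + 30 := ⟨_, rfl⟩
  obtain ⟨x, x1, x2, x3⟩ : ∃ x, r1 ≤ x ∧ M ≤ x ∧ x < rp M a := ⟨max r1 M, le_max_left _ _,
    le_max_right _ _, max_lt s1.2 (by unfold rm rp at m1; unfold rp; linarith)⟩
  have r0 : 0 < (rm M a + r1) / 2 := by linarith [s1.1]
  have btt : ∀ r, (rm M a + r1) / 2 ≤ r → lb r - A r + δ * r ≤ t1 - 2 := fun r hr => by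
    have e := mul_le_mul_of_nonneg_right d1 (r0.le.trans hr)
    rcases le_total r (R + 3) with k | k
    · linarith [(bA r (by linarith) k).2.1]
    · rw [l2 r (by linarith), b2 r k, fA r k]
      linarith [p4 r (by linarith)]
  have e4 : ∀ r, (rm M a + r1) / 2 ≤ r → 4 * M ^ 2 / r ≤ 4 * M ^ 2 / ((rm M a + r1) / 2) :=
    fun r hr => div_le_div_of_nonneg_left (by positivity) r0 hr
  have lg : ∀ t, tb M a (R - 1 / 2) - 3 ≤ t → 3 / 2 * θ1 < Real.exp (ka M a * t) := fun t e => by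
    rw [← Real.log_lt_iff_lt_exp (by linarith [θ0.1, θ0.2]), ← div_lt_iff₀' k0]
    linarith
  have w1 := lip (R + 3) (t1 + 6) (by linarith) (by linarith)
  have w2 := mul_le_mul_of_nonneg_right d1 (show 0 ≤ t1 + 6 - (R + 3) by linarith)
  have w3 : lb (t1 + 6) = 2 * tb M a (t1 + 6) - T + 2 := by
    rw [l2 _ (by linarith), b2 _ (by linarith)]
  have et : ∀ Rs Rb, th0 (z.pm Rs Rb) = Real.exp (ka M a * tb M a (R - 1 / 2)) :=
    fun _ _ => hz ▸ rfl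
  refine ⟨⟨(rm M a + r1) / 2, (x + rp M a) / 2, (rp M a - x) / 8, δ, t1, fun r => lb r - A r⟩, A, B,
    H, T - 2, _, _, lb (t1 + 6) + 7, S + 4 * M ^ 2 / ((rm M a + r1) / 2),
    -(R + 9 / 4) - tb M a (R + 9 / 4) + (T - 2) + 1 / 8, th, sA, sB, nr, B0, by rw [hT], rfl,
    ⟨?_, ?_, ?_, ?_, R10⟩, fun b c d c0 C1 h2 h3 cw1 cw2 hB => ⟨o.a0, h, ?_, ?_, ?_, ?_, ?_, R10, h2,
      h3, q.del, by norm_num [cs], rfl, ⟨cw1, cw2⟩, c0, ?_, hB, C1, l0.sub sA, fun r hr => ?_, btt⟩,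
    fun Rs Rb => ?_, fun t r e => ?_, fun t r r0 e => ?_, ?_, fun r m => ⟨?_, ?_⟩,
    fun t r k e => ?_, fun t r k e => ?_, fun t r k e => ?_, sH, H0, fun r m => ?_, Hm, Hd, ?_,
    fun r hr => ?_, fun Rs Lv t hs op lw => rg_of q sH.continuous H0 Hm ?_ hs op lw, rfl, rfl,
    fun r hr => ?_, ?_, ?_, ⟨?_, ?_⟩, fun r hr => ?_, fun r hr => ?_, fun r hr => ?_⟩
  all_goals try simp only [cs, ← hz, ← hb] at *
  · linarith [s1.1]
  · linarith [s1.1]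
  · linarith
  · linarith [s1.2]
  · unfold rm at s1 ⊢; linarith [s1.1]
  · linarith
  · linarith [s1.1]
  · linarith
  · show _ < rp M a; linarith
  · linarith
  · rw [l2 r (by linarith), b2 r hr, fA r hr]; ring
  · have := (lg (tb M a (R - 1 / 2)) (by linarith)).le
    rw [et Rs Rb]
    exact ⟨le_trans (show θ ≤ 3 / 2 * θ1 by linarith [θ0.1, θ0.2]) this, this⟩
  · have s := st_mem (r - ρ)
    have e1 := l1 r
    have e2 := b4 r
    refine ⟨lg t (by linarith [s.1]), fun k => ?_⟩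
    rcases le_total r (ρ + 1) with j | j
    · linarith [mon _ _ k j, s.1]
    · linarith [l2 r j, b3 r k]
  · have s := st_mem (r - ρ)
    have e1 := l1 r
    have e2 := mul_nonneg d0.le r0
    rcases le_total r ρ with j | j
    · rw [smoothTransition.zero_of_nonpos (sub_nonpos.2 j)] at e1
      linarith [b5 r (by linarith)]
    have e3 := mul_le_mul_of_nonneg_left j d0.le
    rcases le_total r (R + 3) with i | i
    · linarith [b5 r i, s.2]
    · linarith [lip _ _ (show R ≤ R + 3 by linarith) i, b2 r i, s.2,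
        mul_le_mul_of_nonneg_left (show ρ ≤ R + 3 by linarith) d0.le]
  · linarith
  · linarith [l3 m.2]
  · rcases le_total r (R + 3) with i | i
    · linarith [(bA r (by linarith [m.1]) i).1]
    · linarith [fA r i, p4 r (by linarith), mon _ _ (show rp M a < R + 3 by linarith) i]
  · linarith [lip _ _ (show R ≤ R + 3 by linarith) k, b2 r k, fA r k,
      mul_le_mul_of_nonneg_left (show ρ ≤ R + 3 by linarith) d0.le]
  · have e1 := mul_le_mul_of_nonneg_right d1 (r0.le.trans k)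
    rcases le_total r (R + 3) with i | i
    · linarith [(bA r (by linarith) i).2.2.1]
    · linarith [fA r i, b2 r i, p4 r (by linarith), mon _ _ (show rp M a < R + 3 by linarith) i]
  · linarith [fA r (by linarith), mon t1 r (by linarith) k, lip t1 (t1 + 6) (by linarith)
      (by linarith)]
  · rw [abs_of_nonneg ((H0 R le_rfl).ge.trans (Hm m.1))]
    linarith [H2 r m.1, m.2]
  · linarith [p4 _ r0]
  · refine (abs_add_le _ _).trans (add_le_add ?_ ((abs_of_nonneg (p4 r (by linarith))).trans_le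
      (e4 r hr)))
    rcases le_total r (R + 1) with i | i
    · exact (bA r (by linarith) (by linarith)).2.2.2
    · exact Hc r i ▸ (bA _ (by linarith) (by linarith)).2.2.2
  · linarith [H2 (R + 1 / 4) (by linarith)]
  · linarith [btt r hr, e4 r hr, mul_nonneg d0.le (r0.le.trans hr)]
  · ring
  · linarith [mon (R + 2) (R + 9 / 4) (by linarith) (by linarith)]
  · linarith [mon (R + 9 / 4) (R + 3) (by linarith) (by linarith)]
  · linarith [lip (R + 9 / 4) (R + 3) (by linarith) (by linarith)]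
  · linarith [l2 r (by linarith), nr r (by linarith), b3 r (by linarith)]
  · have e1 := l2 r (by linarith)
    have e2 := nr r (by linarith)
    rcases le_total r (R + 3) with i | i
    · linarith [b5 r i, lip r (R + 3) (by linarith) i,
        mul_le_mul d1 (show R + 3 - r ≤ 1 / 2 by linarith) (by linarith) (by norm_num)]
    · linarith [b2 r i]
  · linarith [bS r (by linarith [hr.1]) hr.2, abs_nonneg (H r), abs_nonneg (lb r), abs_nonneg (b r),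
      p4 _ r0]

end Vale.Agent.P354NU
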