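import Vale.Agent.P354PA.Par
import Vale.Agent.P354CQ.Shs

/-! Decay gives the memory and the tail. -/

open Set Filter Topology

namespace Vale.Agent.P354NU

open Vale.Agent.P354PA Vale.Agent.P354CQ

theorem w0_pos (u : ℝ) : 0 < w0 u := Real.rpow_pos_of_pos (by positivity) _

/-- The weight changes by a bounded factor. -/
theorem w0_le_mul {s t K : ℝ} (hK : 1 ≤ K) (h : 1 + |t| ≤ K * (1 + |s|)) :
    w0 s ≤ K ^ 2 * w0 t := by
  have p : 0 < 1 + |t| := by positivity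
  have e := Real.rpow_le_rpow_of_nonpos p h (show -(7 / 5 : ℝ) ≤ 0 by norm_num)
  rw [Real.mul_rpow (by linarith) (by positivity)] at e
  have k : 1 ≤ K ^ 2 * K ^ (-(7 / 5) : ℝ) := by
    rw [← Real.rpow_two, ← Real.rpow_add (by linarith)]
    exact Real.one_le_rpow hK (by norm_num)
  calc w0 s ≤ K ^ 2 * K ^ (-(7 / 5) : ℝ) * w0 s := le_mul_of_one_le_left (w0_pos s).le k
    _ ≤ K ^ 2 * w0 t := by rw [mul_assoc]; exact mul_le_mul_of_nonneg_left e (by positivity)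

theorem w0_shift (s t : ℝ) : w0 s ≤ (1 + |t - s|) ^ 2 * w0 t :=
  w0_le_mul (le_add_of_nonneg_right (abs_nonneg _)) (by
    nlinarith [abs_sub_abs_le_abs_sub t s, mul_nonneg (abs_nonneg s) (abs_nonneg (t - s))])

theorem sq_le_two {x : ℝ} (h : 0 ≤ x) : (1 + x) ^ 2 ≤ 16 * 2 ^ x := by
  have a := Real.add_one_le_exp (Real.log 2 * (x / 2))
  have b : (2 : ℝ) ^ x = Real.exp (Real.log 2 * (x / 2)) ^ 2 := by
    rw [Real.rpow_def_of_pos two_pos, sq, ← Real.exp_add]; congr 1; ring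
  have c := mul_le_mul_of_nonneg_right Real.log_two_gt_d9.le h
  rw [b, show (16 : ℝ) = 4 ^ 2 by norm_num, ← mul_pow]
  exact pow_le_pow_left₀ (by linarith) (by linarith) 2

/-- **Decay gives the memory and the tail**, for times t ≥ -T. -/
theorem dec_pa {c0 T : ℝ} (hc : 0 ≤ c0) (hT : 0 ≤ T) : ∃ C ≥ (1 : ℝ), ∀ (Y : Type) (S : Set Y)
    (tm f : Y → ℝ) (e0 e t : ℝ), 0 ≤ e → e0 ≤ e → -T ≤ t → (∀ y ∈ S, f y ≤ (e * w0 (tm y)) ^ 2) →
    Pa S tm f e0 c0 t (C * e * w0 t) ∧ Ta S tm f c0 t (C * e ^ 2 * w0 t) := by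
  have k : ∀ c d : ℝ, 0 ≤ c → -c ≤ d → (1 + |d|) ^ 2 ≤ 16 * (1 + c) ^ 2 * 2 ^ c * 2 ^ d :=
    fun c d h0 h => by
    have a := sq_le_two (show 0 ≤ d + c by linarith)
    have b : 1 + |d| ≤ (1 + c) * (1 + (d + c)) := by
      have : |d| ≤ d + c + c := abs_le.2 ⟨by linarith, by linarith⟩
      nlinarith [mul_nonneg h0 (show 0 ≤ d + c by linarith)]
    rw [Real.rpow_add two_pos] at a
    calc (1 + |d|) ^ 2 ≤ ((1 + c) * (1 + (d + c))) ^ 2 := pow_le_pow_left₀ (by positivity) b 2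
      _ = (1 + c) ^ 2 * (1 + (d + c)) ^ 2 := mul_pow _ _ _
      _ ≤ (1 + c) ^ 2 * (16 * (2 ^ d * 2 ^ c)) := by gcongr
      _ = _ := by ring
  have sm : Summable fun j : ℕ => w0 j := by
    have := (summable_nat_add_iff 1).2
      (Real.summable_nat_rpow.2 (show -(7 / 5 : ℝ) < -1 by norm_num))
    exact this.congr fun j => by simp [w0, add_comm]
  obtain ⟨K, hK⟩ : ∃ K, K = 1 + c0 + 2 * T := ⟨_, rfl⟩
  have K1 : 1 ≤ K := by linarith
  obtain ⟨C1, h1⟩ : ∃ C, C = 16 * (1 + T) ^ 2 * 2 ^ T := ⟨_, rfl⟩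
  obtain ⟨C2, h2⟩ : ∃ C, C = 16 * (1 + c0) ^ 2 * 2 ^ c0 := ⟨_, rfl⟩
  obtain ⟨C3, h3⟩ : ∃ C, C = K ^ 4 * ∑' j : ℕ, w0 j := ⟨_, rfl⟩
  have p1 : 0 ≤ C1 := by rw [h1]; positivity
  have p2 : 0 ≤ C2 := by rw [h2]; positivity
  have p3 : 0 ≤ C3 := h3 ▸ mul_nonneg (by positivity) (tsum_nonneg fun _ => (w0_pos _).le)
  refine ⟨1 + C1 + C2 + C3, by linarith, fun Y S tm f e0 e t e1 e2 ht h => ?_⟩
  have wt := (w0_pos t).le
  have key : ∀ s C, C ≤ 1 + C1 + C2 + C3 → (1 + |t - s|) ^ 2 ≤ C * 2 ^ (t - s) →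
      e * w0 s ≤ (1 + C1 + C2 + C3) * e * w0 t * 2 ^ (t - s) := fun s C l m =>
    calc e * w0 s ≤ e * (C * 2 ^ (t - s) * w0 t) :=
          mul_le_mul_of_nonneg_left ((w0_shift s t).trans (mul_le_mul_of_nonneg_right m wt)) e1
      _ ≤ e * ((1 + C1 + C2 + C3) * 2 ^ (t - s) * w0 t) := by gcongr
      _ = _ := by ring
  refine ⟨⟨e2.trans ?_, fun y hy l => (h y hy).trans (pow_le_pow_left₀
    (mul_nonneg e1 (w0_pos _).le) (key _ C2 (by linarith) (h2 ▸ k c0 _ hc (by linarith))) 2)⟩,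
    fun j => e ^ 2 * w0 t * (K ^ 4 * w0 j), fun j => mul_nonneg (by positivity)
      (mul_nonneg (by positivity) (w0_pos _).le), fun n => ?_, fun y hy j l _ => ?_⟩
  · simpa [w0] using key 0 C1 (by linarith) (h1 ▸ k T _ hT (by linarith))
  · rw [← Finset.mul_sum, ← Finset.mul_sum]
    have := mul_le_mul_of_nonneg_left (sm.sum_le_tsum (Finset.range n) fun _ _ => (w0_pos _).le)
      (show 0 ≤ K ^ 4 by positivity)
    rw [← h3] at this
    nlinarith [mul_nonneg (sq_nonneg e) wt]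
  · have j0 : (0 : ℝ) ≤ j := j.cast_nonneg
    have a0 := abs_nonneg (tm y)
    have a1 := le_abs_self (tm y)
    have b : ∀ u, |u| ≤ t + j + 2 * T → w0 (tm y) ≤ K ^ 2 * w0 u := fun u m =>
      w0_le_mul K1 (by nlinarith [mul_nonneg (sub_nonneg.2 K1) a0])
    have b1 := b t (abs_le.2 ⟨by linarith, by linarith⟩)
    have b2 := b j (by rw [abs_of_nonneg j0]; linarith)
    have := mul_le_mul b1 b2 (w0_pos _).le (by positivity)
    refine (h y hy).trans ?_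
    nlinarith [mul_le_mul_of_nonneg_left this (sq_nonneg e)]

end Vale.Agent.P354NU
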