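import Vale.Agent.P354MG.Parts
import Vale.Agent.P354Z.Scf
import Vale.Agent.P354CV.Bas

/-! Tools for the numbers of the chart. -/

open scoped ContDiff
open Set Filter Topology

noncomputable section

namespace Vale.Agent.P354NU

open Vale.Agent.P354n (R4)
open Vale.Agent.P354I (rm rp)
open Vale.Agent.P354R (Del)
open Vale.Agent.P354XG (E6)
open Vale.Agent.P354XD (pj)
open Vale.Agent.P354XE (rd ka En)
open Vale.Agent.P354XA (hor)
open Vale.Agent.P354XV (Sw th0)
open Vale.Agent.P354YT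
open Vale.Agent.P354YO (IsTh)
open Vale.Agent.P354CQ (Nrm)
open Vale.Agent.P354RN (shr)
open Vale.Agent.P354MG (lo Rg)
open Vale.Agent.P354Z
open Real (smoothTransition)

/-- The bottom of the low collar, the lid function on r ≤ Rs, and the region of the slices. -/
def bl (z : Z1) : ℝ → ℝ := (lo z 0).be
def nu (z : Z1) : ℝ → ℝ := (z.pm 0 0).nu
def Dq (z : Z1) (H : ℝ → ℝ) (ti Rs : ℝ) (Lv : Set ℝ) : Set (ℝ × ℝ) :=
  {p | ti < p.1 ∧ z.r1 < p.2 ∧ p.2 < Rs ∧ p.1 + H p.2 + nu z p.2 ∈ Lv}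

theorem tb_lip {M a δ R x y : ℝ} (h : |a| < M) (hR : 10 * M ≤ R) (hq : ∀ r ≥ R, qm M a r ≤ δ)
    (hx : R ≤ x) (e : x ≤ y) : tb M a y - tb M a x ≤ δ * (y - x) := by
  have d : ∀ r ∈ Ici R, HasDerivAt (tb M a) (qm M a r) r := fun r m =>
    tb_d h (rp_lt h (hR.trans m))
  exact (convex_Ici R).image_sub_le_mul_sub_of_deriv_le
    (fun r m => (d r m).continuousAt.continuousWithinAt)
    (fun r m => (d r (interior_subset m)).differentiableAt.differentiableWithinAt)
    (fun r m => (d r (interior_subset m)).deriv ▸ hq r (interior_subset m)) x hx y (hx.trans e) e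

theorem qm_small {M a δ r : ℝ} (h : |a| < M) (d : 0 < δ) (h1 : 10 * M ≤ r)
    (h2 : 2 * M + 2 * M / δ ≤ r) : qm M a r ≤ δ := by
  have h0 := (hor h).1
  have e : δ * (2 * M / δ) = 2 * M := mul_div_cancel₀ _ d.ne'
  have k := mul_le_mul_of_nonneg_left h2 d.le
  rw [qm, div_le_iff₀ (Del_pos h (rp_lt h h1)), Del]
  nlinarith [mul_nonneg d.le (sq_nonneg a), mul_le_mul_of_nonneg_right k (show 0 ≤ r by linarith)]

theorem hs_far {M a r : ℝ} (h : |a| < M) (hr : 6 * M ≤ r) :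
    hs M (M, a, r) - 1 = 1 + 2 * qm M a r - 4 * M ^ 2 / r ^ 2 := by
  obtain ⟨h0, -, -, h3, -⟩ := hor h
  have d := (Del_pos h (show rp M a < r by linarith)).ne'
  have e := qm_mul d
  have u : P354XT.up (5 * M) (6 * M) r = 1 := smoothTransition.one_of_one_le
    ((one_le_div (by linarith)).2 (by linarith))
  have v : P354XT.up (3 / 2 * M) (2 * M) M = 0 := smoothTransition.zero_of_nonpos
    (div_nonpos_of_nonpos_of_nonneg (by linarith) (by linarith))
  simp only [hs, cut, P354XT.dn, u, v]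
  rw [← e, show P354BF.De M a r = Del M a r from rfl, mul_comm (Del M a r), ← mul_assoc,
    mul_div_assoc, div_self d]
  ring

theorem ex_A {M a : ℝ} (h : |a| < M) (k R : ℝ) : ∃ A B, IsTh M M a A B ∧ ContDiff ℝ ∞ A ∧
    ContDiff ℝ ∞ B ∧ Nrm M a k A ∧ B R = 0 := by
  obtain ⟨h0, -, -, h3, -⟩ := hor h
  have l : ContDiff ℝ ∞ fun r : ℝ => (M, a, r) := by fun_prop
  have c1 := ((P354CV.hs_cd h0).comp l).sub (contDiff_const (c := (1 : ℝ)))
  have c2 := (contDiff_const (c := (2 : ℝ))).mul ((P354CV.js_cd h0).comp l)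
  refine ⟨fun r => 4 * M ^ 2 / (6 * M) + 6 * M + 2 * tb M a (6 * M) - k + ∫ x in (6 * M)..r, _,
    fun r => ∫ x in R..r, _, fun r => ⟨(prim_d c1.continuous _ r).const_add _,
      prim_d c2.continuous _ r⟩, contDiff_const.add (prim_cd c1 _), prim_cd c2 _, fun r hr => ?_,
    intervalIntegral.integral_same⟩
  have := const_of (fun x hx => ((prim_d c1.continuous (6 * M) x).sub ((((hasDerivAt_inv
    (show x ≠ 0 by linarith)).const_mul (4 * M ^ 2)).add (hasDerivAt_id x)).add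
      ((tb_d h (show rp M a < x by linarith)).const_mul 2))).congr_deriv (by
        simp only [Function.comp]; rw [hs_far h hx]; ring)) hr
  simp only [Pi.sub_apply, Pi.add_apply, intervalIntegral.integral_same, id] at this
  simp only [div_eq_mul_inv]
  linarith

theorem tau_shr (z : Z1) (H : ℝ → ℝ) {Rs : ℝ} (Rb : ℝ) {x : E6} (h : 0 < x.2.1) (h' : x.2.2 ≠ 0)
    (hr : x.2.1 ≤ Rs) : (z.pm Rs Rb).tau (pj (shr H x)) = x.1 + H x.2.1 + nu z x.2.1 := by
  have r : rd (pj (shr H x)) = x.2.1 := P354XR.rd_pj (x := shr H x) h h'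
  rw [Pm.tau, Pm.tq, r, Pm.G_zero (c := z.pm Rs Rb) hr, zero_mul, add_zero]
  exact congrArg₂ _ (sub_zero _) rfl

/-- The region of the slices. -/
theorem rg_of {z : Z1} (o : (z.pm (z.R1 + 1) (z.R1 + 2)).Ok) {H : ℝ → ℝ} (sH : Continuous H)
    (H0 : ∀ r ≤ z.R1, H r = 0) (Hm : Monotone H) (H1 : H (z.R1 + 1 / 4) ≤ 1 / 2) {Rs t : ℝ}
    {Lv : Set ℝ} (hs : z.R1 + 1 ≤ Rs) (op : IsOpen Lv) (lw : IsLowerSet Lv) :
    Rg z.r1 z.R1 Rs t (Dq z H t Rs Lv) := by
  have a1 : AntitoneOn (nu z) (Ioc z.r1 z.R1) := o.nu_anti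
  have a2 : MonotoneOn (nu z) (Ici z.R1) := o.nu_mono
  have a3 : z.r1 < z.R1 := o.lt
  have a4 : rp z.M z.a < z.R1 - 1 / 2 := o.rpR
  have a5 : z.r1 < rp z.M z.a := o.r1.2
  have n0 : ∀ r ∈ Icc (rp z.M z.a) z.R1, nu z r = 0 := fun r hr => Pm.nu_zero (c := z.pm 0 0) hr
  have n1 : nu z (z.R1 + 1 / 4) ≤ 1 / 4 := by
    have e : nu z (z.R1 + 1 / 4) = smoothTransition (rp z.M z.a - (z.R1 + 1 / 4)) /
      (z.R1 + 1 / 4 - z.r1) + ∫ x in z.R1..(z.R1 + 1 / 4), smoothTransition (x - z.R1) *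
        (1 / 2 - 2 * qm z.M z.a x + deriv (fun _ => (0 : ℝ)) x) := rfl
    rw [e, smoothTransition.zero_of_nonpos (by linarith), zero_div, zero_add]
    refine (Real.le_norm_self _).trans ((intervalIntegral.norm_integral_le_of_norm_le_const (C := 1)
      fun x hx => ?_).trans (by norm_num))
    rw [uIoc_of_le (by linarith)] at hx
    have b : 10 * z.M ≤ x := by linarith [show 10 * z.M + 1 ≤ z.R1 from o.R1, hx.1]
    have q1 := qm_le (M := z.M) (a := z.a) o.sub b
    have q2 := qm_pos (M := z.M) (a := z.a) o.sub (rp_lt o.sub b)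
    have s := st_mem (x - z.R1)
    rw [deriv_const, add_zero, Real.norm_of_nonneg (mul_nonneg s.1 (by linarith))]
    nlinarith [s.1, s.2]
  have mo : ∀ r s, z.r1 < r → s ∈ uIcc z.R1 r → H s + nu z s ≤ H r + nu z r ∧ z.r1 < s ∧
      (s ≤ r ∨ s ≤ z.R1) := fun r s h m => by
    rcases le_total z.R1 r with e | e
    · rw [uIcc_of_le e] at m
      exact ⟨add_le_add (Hm m.2) (a2 m.1 e m.2), a3.trans_le m.1, .inl m.2⟩
    · rw [uIcc_of_ge e] at m
      exact ⟨add_le_add (by rw [H0 _ m.2, H0 _ e]) (a1 ⟨h, e⟩ ⟨h.trans_le m.1, m.2⟩ m.1),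
        h.trans_le m.1, .inr m.2⟩
  refine ⟨?_, fun p h => ⟨h.1, h.2.1, h.2.2.1⟩, fun p h r m => ?_, fun p h s m =>
    ⟨m.1, h.2.1, h.2.2.1, lw (by linarith [m.2]) h.2.2.2⟩, fun p h s m r n => ?_⟩
  · refine isOpen_iff_eventually.2 fun p h => ?_
    have c : ContinuousAt (fun p : ℝ × ℝ => p.1 + H p.2 + nu z p.2) p :=
      (continuousAt_fst.add (sH.continuousAt.comp continuousAt_snd)).add
        ((o.nu_cd h.2.1).continuousAt.comp continuousAt_snd)
    exact (continuousAt_const.eventually_lt continuousAt_fst h.1).and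
      ((continuousAt_const.eventually_lt continuousAt_snd h.2.1).and
        ((continuousAt_snd.eventually_lt continuousAt_const h.2.2.1).and
          (c.eventually (op.mem_nhds h.2.2.2))))
  · obtain ⟨b1, b2, b3⟩ := mo _ _ h.2.1 m
    exact ⟨h.1, b2, b3.elim (fun e => e.trans_lt h.2.2.1) fun e => by linarith,
      lw (by linarith) h.2.2.2⟩
  · have b1 := (mo _ _ h.2.1 left_mem_uIcc).1
    rw [H0 _ le_rfl, n0 _ ⟨by linarith, le_rfl⟩] at b1
    have b2 : H r + nu z r ≤ 1 := by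
      rcases le_total r z.R1 with e | e
      · rw [H0 _ e, n0 _ ⟨by linarith [n.1], e⟩]; norm_num
      · linarith [(mo (z.R1 + 1 / 4) r (by linarith) (by
          rw [uIcc_of_le (by linarith)]; exact ⟨e, n.2⟩)).1]
    exact ⟨m.1, by linarith [n.1], by linarith [n.2], lw (by linarith [m.2]) h.2.2.2⟩

theorem ex_H {M a R : ℝ} {A B : ℝ → ℝ} (h : |a| < M) (hR : 10 * M ≤ R) (t : IsTh M M a A B)
    (sA : ContDiff ℝ ∞ A) : ∃ H : ℝ → ℝ, ContDiff ℝ ∞ H ∧ (∀ r ≤ R, H r = 0) ∧ Monotone H ∧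
      (∀ r ≥ R, H r ≤ 2 * (r - R)) ∧ (∀ r, deriv H r = smoothTransition (r - R) * deriv A r) ∧
      ∀ r ≥ R + 1, H r - A r = H (R + 1) - A (R + 1) := by
  have h0 := (hor h).1
  have c := (st_sub R).mul (contDiff_infty_iff_deriv.1 sA).2
  have d := prim_d c.continuous R
  have b : ∀ r, 0 ≤ smoothTransition (r - R) * deriv A r ∧
      smoothTransition (r - R) * deriv A r ≤ 2 := fun r => by
    rcases le_total r R with e | e
    · rw [smoothTransition.zero_of_nonpos (sub_nonpos.2 e), zero_mul]; norm_num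
    · have q1 := qm_le h (hR.trans e)
      have q2 := qm_pos h (rp_lt h (hR.trans e))
      have r0 : 0 < r := by linarith
      have q3 : 4 * M ^ 2 / r ^ 2 ≤ 1 := (div_le_one (by positivity)).2 (by nlinarith)
      have q4 : 0 ≤ 4 * M ^ 2 / r ^ 2 := by positivity
      have s := st_mem (r - R)
      rw [(t r).1.deriv, hs_far h (by linarith)]
      exact ⟨mul_nonneg s.1 (by linarith), by nlinarith [s.1, s.2]⟩
  refine ⟨_, prim_cd c R, fun r hr => ?_, monotone_of_deriv_nonneg (fun r => (d r).differentiableAt)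
    fun r => (d r).deriv ▸ (b r).1, fun r hr => ?_, fun r => (d r).deriv, fun r hr => ?_⟩
  · rw [intervalIntegral.integral_congr (g := fun _ => 0), intervalIntegral.integral_zero]
    intro x hx
    rw [uIcc_of_ge hr] at hx
    simp only [smoothTransition.zero_of_nonpos (sub_nonpos.2 hx.2), zero_mul]
  · have := image_sub_le_mul_sub_of_deriv_le (fun r => (d r).differentiableAt) (C := 2)
      (fun r => (d r).deriv ▸ (b r).2) hr
    rwa [intervalIntegral.integral_same, sub_zero] at this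
  · exact const_of (fun x hx => ((d x).sub
      (sA.differentiable (by simp) x).hasDerivAt).congr_deriv (by
        rw [smoothTransition.one_of_one_le (by linarith), one_mul, sub_self])) hr

/-- The collar is high. -/
theorem rb_big {z : Z1} (o : z.Ok) {A : ℝ → ℝ} (hA : Continuous A) {Rs : ℝ} (hs : z.R1 + 1 ≤ Rs)
    (T : ℝ) : ∀ᶠ Rb in atTop, z.R1 + 2 ≤ Rb ∧ (z.pm Rs Rb).O ⊆ Sw (z.pm Rs Rb) ∧
      ∀ p : R4, z.r1 < rd p → rd p ≤ Rs + 1 → p.1 - A (rd p) ≤ T → (z.pm Rs Rb).psi p < -1 := by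
  obtain ⟨S, hS⟩ := (isCompact_Icc (a := z.r1) (b := Rs + 1)).bddAbove_image hA.continuousOn
  filter_upwards [be_big o hs (T + S), eventually_ge_atTop (z.R1 + 2), (P354YA.tb_top
    (o.ok Rs hs _ le_rfl).1.1.sub).eventually_ge_atTop (tb z.M z.a (z.R1 - 1 / 2) + z.R1)]
    with Rb b1 b2 b3
  have q := (o.ok Rs hs Rb b2).1.1
  refine ⟨b2, P354XV.O_sw q (show z.R1 ≤ Rb by linarith) b3, fun p h1 h2 h3 => ?_⟩
  have r0 := q.pos h1
  rw [q.psi_lt r0]
  linarith [b1 (rd p), hS ⟨_, ⟨h1.le, h2⟩, rfl⟩, mul_pos q.del.1 r0]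

end Vale.Agent.P354NU
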