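import Vale.Agent.P354NU.Zd
import Vale.Agent.P354YS.Phi

/-! ZC: the near chart in the three zones. -/

open scoped ContDiff
open Set Filter Topology

namespace Vale.Agent.P354NU

open Vale.Agent.P354n (R4)
open Vale.Agent.P354XG (E6)
open Vale.Agent.P354XD (pj)
open Vale.Agent.P354XR (rd_pj)
open Vale.Agent.P354XE (Tw pb Bd rd gin)
open Vale.Agent.P354XO (Om)
open Vale.Agent.P354YI (Jb jb_const)
open Vale.Agent.P354YO (bd_mono)
open Vale.Agent.P354YS (bd_cg)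
open Vale.Agent.P354RN (shr)
open Vale.Agent.P354CQ (cut P6)
open Vale.Agent.P354MG

variable {φ ψ : R4 → R4} {q : R4} {n : ℕ} {e : ℝ}

theorem nid_cg (h : Nid n φ q e) (k : ψ =ᶠ[𝓝 q] φ) : Nid n ψ q e :=
  ⟨(h.ev.and k.eventuallyEq_nhds).mono fun _ j => j.1.congr_of_eventuallyEq j.2,
    h.d.congr ((k.fderiv (𝕜 := ℝ)).mono fun _ j => congrArg (· - _) j), k.eq_of_nhds ▸ h.x⟩

theorem jb_nil {V : Type} [NormedAddCommGroup V] [NormedSpace ℝ V] {g : R4 → V} (h : 0 ≤ e)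
    (k : g =ᶠ[𝓝 q] fun _ => 0) : Jb n g q e :=
  ((jb_const n (0 : V) q).congr k).mono le_rfl (norm_zero.trans_le h)

theorem nid_id (h : 0 ≤ e) : Nid n id q e :=
  ⟨.of_forall fun _ => contDiffAt_id, jb_nil h (.of_forall fun _ => by simp), by simpa using h⟩

theorem pb_ev (k : ψ =ᶠ[𝓝 q] φ) (g h : Tw) : h - pb ψ g =ᶠ[𝓝 q] h - pb φ g :=
  (k.and (k.fderiv (𝕜 := ℝ))).mono fun x j => by
    funext v w
    simp only [Pi.sub_apply, pb, j.1, j.2]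

theorem dfc_ev (k : ψ =ᶠ[𝓝 q] φ) (κ : ℝ) : dfc ψ κ =ᶠ[𝓝 q] dfc φ κ :=
  (k.and (k.fderiv (𝕜 := ℝ))).mono fun x j => by simp only [dfc, j.1, j.2]

theorem dfc_id (k : ψ =ᶠ[𝓝 q] id) : dfc ψ 1 =ᶠ[𝓝 q] fun _ => 0 :=
  (dfc_ev k 1).mono fun x j => j.trans (by simp [dfc])

theorem un_rs {f : Fx} {Rs ρ : ℝ} {Lv : Set ℝ} {x : E6} (h : x ∈ Un (f.Dh Rs Lv) ρ) :
    x ∈ Un (f.Dh Rs Lv) Rs := ⟨h.1, h.2.1, h.1.1.2.2.1.le⟩

/-- **ZC.** -/
theorem zc : ZC := by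
  intro f o N C mC ρ
  obtain ⟨a0, a1, a2, a3, a4, -, -, -, -⟩ := nums o
  have cH := o.nu.cH0
  obtain ⟨Ca, ea, ea0, hA⟩ := P354YS.pha f.z.M f.z.a f.z.r1 f.z.R1 ρ f.A f.B N (sub o)
    (by linarith) (by linarith) o.nu.th
  obtain ⟨Cb, eb, eb0, hB⟩ := P354YS.phb f.z.M f.z.a f.z.r1 f.z.R1 ρ f.A f.B N (sub o)
    (by linarith) (by linarith) o.nu.th
  obtain ⟨c, c1, c2⟩ : ∃ c, 1 ≤ c ∧ C ρ + 1 ≤ c := ⟨max 1 _, le_max_left _ _, le_max_right _ _⟩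
  obtain ⟨α, α1, α2⟩ : ∃ c, 1 ≤ c ∧ Ca ≤ c := ⟨max 1 _, le_max_left _ _, le_max_right _ _⟩
  obtain ⟨β, β1, β2⟩ : ∃ c, 1 ≤ c ∧ Cb ≤ c := ⟨max 1 _, le_max_left _ _, le_max_right _ _⟩
  obtain ⟨K, hK⟩ : ∃ K, K = c * (2 * f.cH + 6) + α * c := ⟨_, rfl⟩
  have K0 : 0 ≤ c * (2 * f.cH + 6) := by positivity
  have K2 : c ≤ α * c := le_mul_of_one_le_left (by linarith) α1
  have K1 : 1 ≤ K := by linarith
  have K3 : K ≤ β * K := le_mul_of_one_le_left (by linarith) β1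
  refine ⟨β * K, by linarith, min (ea / c) (eb / K), by positivity,
    fun ρ' hρ Rs Rb v k E e0 hs hb I x hx r μ ν l1 l2 l3 W => ?_⟩
  have hs' : f.z.R1 + 1 ≤ Rs := by linarith
  have m : x ∈ Om (f.D Rs v.Lv) := ⟨hx.1.1, hx.2⟩
  have p := p6 o m
  have rq : rd (pj x) = x.2.1 := rd_pj p.1 p.2
  have q1 : f.z.r1 ≤ rd (pj x) := rq ▸ le_of_lt m.1.1
  have q2 : rd (pj x) ≤ ρ := rq ▸ r.trans hρ.2
  have μ0 := W.nn
  have ν0 := μ0.trans l1
  have cρ : C ρ' + 1 ≤ c := by linarith [mC hρ.2]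
  have la : c * ν ≤ ea := (le_div_iff₀' (by linarith)).1 (l3.trans (min_le_left _ _))
  have lb : K * ν ≤ eb := (le_div_iff₀' (by linarith)).1 (l3.trans (min_le_right _ _))
  have up : ∀ {X Y s : ℝ}, 0 ≤ s → X ≤ Y → X * s ≤ Y * s := fun h k =>
    mul_le_mul_of_nonneg_right k h
  have one : ∀ {X s : ℝ}, 0 ≤ s → 1 ≤ X → s ≤ X * s := fun h k => le_mul_of_one_le_left h k
  have e00 : 0 ≤ e0 := I.s0.1
  have A : f.ti - 3 < x.1 → ∀ μ' ν', ν' ≤ ν →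
      Sz f.z.M f.z.a f.H k (f.Dh Rs v.Lv) v.g ρ' {(sl f x).1} μ' ν' →
      |v.M - f.z.M| + |v.a - f.z.a| ≤ ν' → ‖v.pq (sl f x).1 - (v.M, v.a)‖ ≤ μ' ∨ ν' ≤ μ' →
      Nid N (phN f.z.M f.A f.B v.A v.B v.y) (pj x) (α * c * ν') ∧
      |(phN f.z.M f.A f.B v.A v.B v.y (pj x) - pj x).1| ≤
        |(v.y (f.S (pj x)) - f.S (pj x)).1| + α * c * ν' ∧
      Bd N (f.h v - pb (phN f.z.M f.A f.B v.A v.B v.y) (f.kv v)) (pj x) (α * c * μ') :=
    fun u μ' ν' j z d h => by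
    obtain ⟨y1, y2, y3⟩ := I.ny.pt ρ' (by linarith [hρ.1]) _ (sl_mem o hs' m hx.1.2 u) r μ' ν' z
    rw [pj_sl p] at y1 y3
    have n0 := z.1.trans z.2.1
    have c0 : 0 ≤ c := by linarith
    obtain ⟨b1, b2, b3⟩ := hA v.g v.y v.M v.a v.A v.B (v.pq (sl f x).1) (pj x) (c * μ') (c * ν')
      I.nth (d.trans (one n0 c1)) (h.elim (fun h => h.trans (one z.1 c1)) fun h => by
        have t := norm_sub_le_norm_sub_add_norm_sub (v.pq (sl f x).1) (f.z.M, f.z.a) (v.M, v.a)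
        have t2 : ‖(f.z.M, f.z.a) - (v.M, v.a)‖ ≤ ν' := norm_sub_rev (_ : ℝ × ℝ) _ ▸
          (max_le_add_of_nonneg (abs_nonneg _) (abs_nonneg _)).trans d
        linarith [up n0 cρ, mul_le_mul_of_nonneg_left h c0])
      (mul_le_mul_of_nonneg_left z.2.1 c0) ((mul_le_mul_of_nonneg_left j c0).trans la) q1 q2
      (Gm.sb I.toGm (pt_late o hs' hb m u)) (y1.mono le_rfl (up n0 (by linarith)))
      (bd_mono y3 le_rfl (up z.1 (by linarith)))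
    simp only [mul_assoc]
    exact ⟨b1.mono le_rfl (up (mul_nonneg c0 n0) α2),
      b2.trans (add_le_add le_rfl (up (mul_nonneg c0 n0) α2)),
      bd_mono b3 le_rfl (up (mul_nonneg c0 z.1) α2)⟩
  have w := abs_le.1 (win o (x := x) m.1.1)
  rcases le_or_gt (f.ti + 2) x.1 with u | u
  · have ev := phi_late (f := f) (v := v) (q := pj x) (show f.ti + 1 < x.1 by linarith)
    have s := sl_mem o hs' m hx.1.2 (by linarith)
    obtain ⟨b1, -, b3⟩ := A (by linarith) μ ν le_rfl ⟨μ0, l1, fun y hy t => ⟨W.eta (by linarith) y hy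
      (by rw [show y.1 = _ from t]; exact abs_le.2 w),
        bd_mono (I.sz.2.2 y (un_rs hy) trivial).2 le_rfl l2⟩⟩ (I.par.trans l2)
      (.inl (W.par (by linarith) _ ((o.nu.rg Rs v.Lv f.t0 hs' I.op I.lw).star _ s.1 _
        left_mem_uIcc) (abs_le.2 w)))
    exact ⟨(nid_cg b1 ev).mono le_rfl (up ν0 (by linarith)),
      fun _ => bd_mono (bd_cg b3 (pb_ev ev _ _)) le_rfl (up μ0 (by linarith)),
      fun k => absurd u (not_le.2 k)⟩
  have d := W.early u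
  have d0 : 0 ≤ |v.M - f.z.M| + |v.a - f.z.a| := by positivity
  have Kμ := one μ0 K1
  have B : ∀ φ : R4 → R4, f.phi v =ᶠ[𝓝 (pj x)] phB f.ti φ → Nid N φ (pj x) (K * μ) →
      |(φ (pj x) - pj x).1| ≤ K * μ → Qc f N (β * K) v Rs Rb x μ ν := fun φ ev n1 n2 => by
    obtain ⟨b1, -, b2, b3⟩ := hB φ f.ti (pj x) (K * μ)
      ((mul_le_mul_of_nonneg_left l1 (by linarith)).trans lb) q1 q2 n1 n2
    have k : Cb * (K * μ) ≤ β * K * μ := (up (by linarith) β2).trans_eq (mul_assoc _ _ _).symm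
    refine ⟨(nid_cg b1 ev).mono le_rfl (k.trans (mul_le_mul_of_nonneg_left l1 (by linarith))),
      fun t => bd_mono (bd_cg (b3 v.g v.M v.a v.A v.B I.nth (by linarith) (Gm.sb I.toGm t)
        (bd_mono (I.b0 (f.S (pj x)) t ((rd_S p).trans_le (le_of_lt hx.1.2)) ?_) le_rfl (by linarith)))
          (pb_ev ev _ _)) le_rfl k, fun _ => (b2.congr (dfc_ev ev 1)).mono le_rfl k⟩
    rw [rd_S p, S_1 p]
    linarith [div_nonneg (show 0 ≤ 4 * f.z.M ^ 2 by positivity) (le_of_lt p.1)]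
  rcases lt_or_ge x.1 f.ti with u' | u'
  · exact B id ((phi_id (q := pj x) u').mono fun y j => j.trans (by simp [phB]))
      (nid_id (by linarith)) (by simpa using μ0.trans Kμ)
  have s := sl_mem o hs' m hx.1.2 (by linarith)
  have z : ∀ T : Set ℝ, T ⊆ Iic (f.ti + f.cH + 4) →
      Sz f.z.M f.z.a f.H k (f.Dh Rs v.Lv) v.g ρ' T μ μ := fun T hT => ⟨μ0, le_rfl, fun y hy t =>
    (I.s0.2.2 y (un_rs hy) (hT t)).imp (fun j => j.trans (pow_le_pow_left₀ e00 (by linarith) 2))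
      fun j => bd_mono j le_rfl (by linarith)⟩
  obtain ⟨b1, b2, -⟩ := A (by linarith) μ μ l1
    (z _ (singleton_subset_iff.2 (mem_Iic.2 (by linarith)))) (by linarith) (.inr le_rfl)
  have t := I.ny.tm ρ' (by linarith [hρ.1]) _ s r μ (z _ (Iic_subset_Iic.2 (by linarith)))
  rw [pj_sl p, show (shr f.H (sl f x)).1 = (f.S (pj x)).1 from congrArg Prod.fst (pj_sl p)] at t
  refine B _ .rfl (b1.mono le_rfl (up μ0 (by linarith))) (b2.trans ?_)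
  have t0 : f.t0 < (sl f x).1 := s.1.1
  have t1 : C ρ' * μ * (1 + ((sl f x).1 - f.t0)) ≤ c * μ * (2 * f.cH + 6) :=
    mul_le_mul (up μ0 (by linarith)) (by linarith [o.nu.hti]) (by linarith) (by positivity)
  rw [hK, Prod.fst_sub]
  linarith

end Vale.Agent.P354NU
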