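import Vale.Agent.P354NU.Zg

/-! The parts of ZON. Exact statements. -/

open scoped ContDiff
open Set Filter Topology

namespace Vale.Agent.P354NU

open Vale.Agent.P354XG (E6)
open Vale.Agent.P354XD (pj)
open Vale.Agent.P354XE (pb Bd)
open Vale.Agent.P354XO (Om dnf)
open Vale.Agent.P354YI (Jb)
open Vale.Agent.P354RN (shr)
open Vale.Agent.P354CQ (cut anc hp')
open Vale.Agent.P354MG

/-- The statement Q holds at all points with r ≤ ρ, for the sizes μ ≤ ν ≤ e. -/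
def Al (f : Fx) (N : ℕ) (C : ℝ → ℝ) (ρ e : ℝ) (Q : Va → ℝ → ℝ → E6 → ℝ → ℝ → Prop) : Prop :=
  ∀ ρ' ∈ Icc (f.z.R1 + 1) ρ, ∀ Rs Rb v k E e0, f.z.R1 + 4 ≤ Rs → f.z.R1 + 2 ≤ Rb →
    In f v Rs Rb k N C E e0 → ∀ x ∈ Om (cut (f.D Rs v.Lv) Rs), x.2.1 ≤ ρ' → ∀ μ ν, μ ≤ ν → E ≤ ν →
      ν ≤ e → Wn f v Rs k e0 ρ' x.1 μ → Q v Rs Rb x μ ν

/-- The near chart at x. -/
structure Qc (f : Fx) (N : ℕ) (K : ℝ) (v : Va) (Rs Rb : ℝ) (x : E6) (μ ν : ℝ) : Prop where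
  nid : Nid N (f.phi v) (pj x) (K * ν)
  bd : f.z.Pt Rs Rb v.Lv (f.S (pj x)) → Bd N (f.h v - pb (f.phi v) (f.kv v)) (pj x) (K * μ)
  df : x.1 < f.ti + 2 → Jb N (dfc (f.phi v) 1) (pj x) (K * μ)

/-- The ray through x. -/
def Qr (f : Fx) (n : ℕ) (K : ℝ) (v : Va) (_ _ : ℝ) (x : E6) (μ ν : ℝ) : Prop :=
  f.R ≤ x.2.1 → ContDiffAt ℝ ∞ (f.al v) x ∧ ∃ κ, |κ - 1| ≤ K * ν ∧
    Jb n (fun q => dnf (f.al v) q - κ) (pj (anc f.R x)) (K * μ) ∧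
    ∀ s ∈ Icc f.R x.2.1, Jb n (dfc (f.phi v) κ) (pj (anc s x)) (K * μ)

def ZC : Prop := ∀ f : Fx, f.Ok → ∀ N (C : ℝ → ℝ), Monotone C → ∀ ρ, ∃ K ≥ (1 : ℝ), ∃ e > 0,
  Al f N C ρ e (Qc f N K)

def ZR : Prop := ∀ f : Fx, f.Ok → ∀ n, ∃ N ≥ n, ∀ C : ℝ → ℝ, Monotone C → ∀ ρ, ∃ K, ∃ e > 0,
  Al f N C ρ e (Qr f n K)

def ZT : Prop := ∀ f : Fx, f.Ok → ∀ N (C : ℝ → ℝ), Monotone C → ∃ K, ∃ e > 0,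
  ∀ Rs Rb v k E e0, f.z.R1 + 4 ≤ Rs → f.z.R1 + 2 ≤ Rb → In f v Rs Rb k N C E e0 → E ≤ e →
    ∀ x ∈ Om (f.Dh Rs v.Lv), x.2.1 ≤ f.z.R1 + 1 →
      |(f.phi v (pj (hp' f.z.M f.A f.B (shr f.H x)))).1 - (v.y (pj (shr f.H x))).1| ≤ K

end Vale.Agent.P354NU
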