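import Vale.Agent.P354NU.Zon
import Vale.Agent.P354YM.Zr
import Vale.Agent.P354FW.Zt

/-! ZON. -/

namespace Vale.Agent.P354NU

theorem zon : P354MG.ZON := zon_of zc (P354YM.zr zc) P354FW.zt

end Vale.Agent.P354NU
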