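import Vale.Agent.P354MG.Asm
import Vale.Agent.P354TS.Tz
import Vale.Agent.P354CS.Pre
import Vale.Agent.P354YO.OutA1

/-! The geometry of the zones: slices, rays, the seam. -/

open scoped ContDiff
open Set Filter Topology

noncomputable section

namespace Vale.Agent.P354NU

open Vale.Agent.P354n (R4)
open Vale.Agent.P354I (rm rp)
open Vale.Agent.P354XG (E6)
open Vale.Agent.P354XD (pj)
open Vale.Agent.P354XR (rd_pj)
open Vale.Agent.P354XE (Tw rd ka gin Lo ur)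
open Vale.Agent.P354XO (Om om_open)
open Vale.Agent.P354XV (Sw Fst)
open Vale.Agent.P354YT (tb tb_d)
open Vale.Agent.P354YO (Sb sb_lv rd_sh)
open Vale.Agent.P354RN (shr neg_shr)
open Vale.Agent.P354CQ Vale.Agent.P354MG Vale.Agent.P354Z

variable {f : Fx} {v : Va} {x : E6} {Rs Rb s : ℝ} {Lv : Set ℝ}

/-- The point of the chart of the slices. -/
def sl (f : Fx) (x : E6) : E6 := shr (-f.H) (f.P x)

theorem shr_sl : shr f.H (sl f x) = f.P x := neg_shr _ _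
theorem pj_P (hx : x ∈ P6) : pj (f.P x) = f.S (pj x) := ps_st hx
theorem pj_sl (hx : x ∈ P6) : pj (shr f.H (sl f x)) = f.S (pj x) := by rw [shr_sl, pj_P hx]
theorem P_1 : (f.P x).1 = x.1 + f.A x.2.1 - 4 * f.z.M ^ 2 / x.2.1 := by
  simp only [Fx.P, P354CQ.ph, ki, s6, Function.comp]; ring
theorem sl_1 : (sl f x).1 = x.1 + f.A x.2.1 - 4 * f.z.M ^ 2 / x.2.1 - f.H x.2.1 := by
  rw [← P_1]; exact (sub_eq_add_neg _ _).symm
theorem S_1 (hx : x ∈ P6) : (f.S (pj x)).1 = x.1 + f.A x.2.1 - 4 * f.z.M ^ 2 / x.2.1 := by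
  rw [← pj_P hx, ← P_1]; rfl
theorem rd_S (hx : x ∈ P6) : rd (f.S (pj x)) = x.2.1 := (congrArg rd (pj_P hx).symm).trans (rd_ps hx)
theorem P_p6 (hx : x ∈ P6) : f.P x ∈ P6 := by
  rw [Fx.P, P354CS.ph_eq]; exact P354CS.s6_mem hx

section
variable (o : f.Ok)
include o

theorem pmo (hs : f.z.R1 + 1 ≤ Rs) (hb : f.z.R1 + 2 ≤ Rb) : (f.z.pm Rs Rb).Ok :=
  (o.ok.ok Rs hs Rb hb).1.1
theorem sub : |f.z.a| < f.z.M := (pmo o le_rfl le_rfl).sub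

theorem nums : 0 < f.z.M ∧ 0 < f.a.r1 ∧ f.a.r1 < f.z.r1 ∧ f.z.r1 + 1 ≤ f.z.R1 ∧
    10 * f.z.M + 10 ≤ f.z.R1 ∧ rp f.z.M f.z.a ≤ 2 * f.z.M ∧ f.us < 0 ∧ 4 ≤ f.ti - f.t0 + 1 ∧
      0 < f.t0 := by
  obtain ⟨h0, m0, -, m2, -⟩ := P354XA.hor (sub o)
  obtain ⟨a1, a2, -, a4, a5⟩ := o.nu.r1
  have : 0 ≤ 4 * f.z.M ^ 2 / f.a.r1 := div_nonneg (by positivity) (by linarith)
  exact ⟨h0, by linarith, a2, a4, a5, m2, by linarith [o.nu.us3.2], by linarith [o.nu.hti, o.nu.cH0],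
    by linarith [o.nu.hti', o.nu.cH0, o.nu.big]⟩

theorem th : P354CQ.Th f.z.M f.z.a f.A f.B := ⟨sub o, o.nu.th, o.nu.sA, o.nu.sB⟩

theorem tzz (hs : f.z.R1 + 1 ≤ Rs) : ∃ L c1,
    Tz f.z.r1 f.z.R1 Rs L c1 (fz f.z f.A) (tz f.z f.A f.B Rs) ∧ ∀ Rb, ∀ x ∈ P6,
      (f.z.pm Rs Rb).tau (f.S (pj x)) = tz f.z f.A f.B Rs (x.1, x.2.1) := by
  obtain ⟨L, h⟩ := P354TS.tz_ok f.z f.A f.B o.ok o.nu.th
  obtain ⟨c1, t, e⟩ := h Rs hs
  exact ⟨L, c1, t, fun Rb x hx => pj_P (f := f) hx ▸ e Rb x hx⟩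

theorem p6 (hx : x ∈ Om (f.D Rs Lv)) : x ∈ P6 := by
  obtain ⟨-, a1, a2, -⟩ := nums o
  exact ⟨show 0 < x.2.1 by linarith [show f.z.r1 < x.2.1 from hx.1.1], hx.2⟩

theorem win (r : f.z.r1 < x.2.1) : |(sl f x).1 - x.1| ≤ f.cH := by
  have := o.nu.hcH x.2.1 (by linarith [o.nu.r1.2.1])
  rw [sl_1, ← abs_neg]
  exact (congrArg _ (by ring)).trans_le this

theorem sl_mem (hs : f.z.R1 + 1 ≤ Rs) (hx : x ∈ Om (f.D Rs Lv)) (r : x.2.1 < Rs)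
    (u : f.ti - 3 < x.1) : sl f x ∈ Om (f.Dh Rs Lv) := by
  obtain ⟨L, c1, t, -⟩ := tzz o hs
  have e := t.near (x.1, x.2.1) hx.1.1 r.le
  refine ⟨⟨?_, hx.1.1, r, ?_⟩, (P_p6 (p6 o hx)).2⟩
  · linarith [(abs_le.1 (win o (x := x) hx.1.1)).1, o.nu.hti]
  · have m : tz f.z f.A f.B Rs (x.1, x.2.1) ∈ Lv := hx.1.2
    rw [e] at m
    show (sl f x).1 + f.H x.2.1 + nu f.z x.2.1 ∈ Lv
    rwa [show (sl f x).1 + f.H x.2.1 + nu f.z x.2.1 = x.1 + fz f.z f.A x.2.1 by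
      simp only [sl_1, fz, nu]; ring]

theorem late (r : f.z.r1 < x.2.1) (hx : x ∈ P6) (u : f.ti - 3 < x.1) :
    f.z.θ ≤ Real.exp (ka f.z.M f.z.a * (f.S (pj x)).1) ∧
      (rp f.z.M f.z.a < x.2.1 → tb f.z.M f.z.a x.2.1 < (f.S (pj x)).1) := by
  obtain ⟨e1, e2⟩ := o.nu.en (f.S (pj x)).1 x.2.1 (by
    rw [S_1 hx]
    linarith [o.nu.bb x.2.1 (by linarith [o.nu.r1.2.1]), o.nu.hti, o.nu.hti', o.nu.cH0])
  exact ⟨by linarith [o.ok.θ.1, o.ok.θ.2], fun k => by linarith [e2 k]⟩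

theorem seam (hx : x ∈ P6) (r : f.R ≤ x.2.1) (u : f.us - 1 / 16 < x.1) :
    tb f.z.M f.z.a x.2.1 < (f.S (pj x)).1 := by
  obtain ⟨a0, -, -, -, a1, a2, -⟩ := nums o
  have e : f.R = f.z.R1 + 9 / 4 := rfl
  have m : tb f.z.M f.z.a f.R ≤ tb f.z.M f.z.a x.2.1 := (pmo o le_rfl le_rfl).tb_mono
    (show rp f.z.M f.z.a < f.R by linarith) (show rp f.z.M f.z.a < x.2.1 by linarith) r
  rw [S_1 hx, o.nu.nrm x.2.1 (by linarith)]
  rw [e] at m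
  linarith [o.nu.us1]

variable (hs : f.z.R1 + 1 ≤ Rs) (hb : f.z.R1 + 2 ≤ Rb) (hx : x ∈ Om (f.D Rs Lv))
include hs hx

theorem tau_mem (Rb : ℝ) : (f.z.pm Rs Rb).tau (f.S (pj x)) ∈ Lv := by
  obtain ⟨L, c1, -, e⟩ := tzz o hs
  exact e Rb x (p6 o hx) ▸ hx.1.2

theorem ray_mem (lw : IsLowerSet Lv) (h1 : f.z.R1 + 1 ≤ s) (h2 : s ≤ x.2.1) :
    anc s x ∈ Om (f.D Rs Lv) := by
  obtain ⟨L, c1, t, -⟩ := tzz o hs
  have r : f.z.r1 < s := by linarith [o.nu.r1.2.2.2.1]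
  exact ⟨⟨r, lw (show tz f.z f.A f.B Rs (x.1, s) ≤ tz f.z f.A f.B Rs (x.1, x.2.1) by
    linarith [t.mono_r (u := x.1) r h1 h2]) hx.1.2⟩, hx.2⟩

include hb

theorem pt_late (u : f.ti - 3 < x.1) : f.z.Pt Rs Rb Lv (f.S (pj x)) := by
  have p := p6 o hx
  obtain ⟨e1, e2⟩ := late o hx.1.1 p u
  refine ⟨((pmo o hs hb).En_iff f.z.θ _).2 ⟨?_, e1, ?_⟩, tau_mem o hs hx Rb⟩
  · exact hx.1.1.trans_eq (rd_S p).symm
  · rw [rd_S p]; exact fun k => (e2 k).le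

theorem sw_of (r : f.z.R1 ≤ x.2.1) (t : tb f.z.M f.z.a x.2.1 < (f.S (pj x)).1) :
    f.S (pj x) ∈ interior (Sw (f.z.pm Rs Rb)) ∧ f.z.Pt Rs Rb Lv (f.S (pj x)) := by
  obtain ⟨a0, -, -, a3, a1, a2, -⟩ := nums o
  have q := pmo o hs hb
  have m := tau_mem o hs hx Rb
  rw [← rd_S (f := f) (p6 o hx)] at r t
  generalize f.S (pj x) = p at *
  have c := P354XA.rd_cont.continuousAt (x := p)
  refine ⟨mem_interior_iff_mem_nhds.2 ?_, (q.En_iff f.z.θ _).2 ⟨show f.z.r1 < _ by linarith,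
    (o.nu.θ Rs Rb).1.trans (Real.exp_le_exp.2 (mul_le_mul_of_nonneg_left
      ((q.tb_mono q.rpR (show rp f.z.M f.z.a < rd p by linarith)
        (show f.z.R1 - 1 / 2 ≤ rd p by linarith)).trans t.le) (P354XA.hor (sub o)).2.2.2.2.1.le)),
    fun _ => t.le⟩, m⟩
  filter_upwards [c.eventually_const_lt (show f.z.R1 - 1 / 2 < rd p by linarith),
    (((tb_d (sub o) (show rp f.z.M f.z.a < rd p by linarith)).continuousAt.comp c).eventually_lt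
      continuousAt_fst t)] with y y1 y2
  exact ⟨show f.z.r1 < _ by linarith, fun _ => y2.le, fun k => absurd k (not_le.2 y1)⟩

end

theorem Gm.sb (g : Gm f v Rs Rb) {p : R4} (h : f.z.Pt Rs Rb v.Lv p) : Sb v.g p :=
  let ⟨_, l, m⟩ := g.lv p h
  sb_lv l m

theorem phi_id {q : R4} (u : q.1 < f.ti) : f.phi v =ᶠ[𝓝 q] id :=
  (continuousAt_fst.eventually_lt_const u).mono fun y k => by
    rw [Fx.phi, phB, Real.smoothTransition.zero_of_nonpos (by linarith), zero_smul, add_zero, id]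

theorem phi_late {q : R4} (u : f.ti + 1 < q.1) :
    f.phi v =ᶠ[𝓝 q] phN f.z.M f.A f.B v.A v.B v.y :=
  (continuousAt_fst.eventually_const_lt u).mono fun y k => by
    rw [Fx.phi, phB, Real.smoothTransition.one_of_one_le (by linarith), one_smul, add_sub_cancel]

section
variable (o : f.Ok) (hs : f.z.R1 + 1 ≤ Rs) (hb : f.z.R1 + 2 ≤ Rb) (g : Gm f v Rs Rb)
include o hs g

theorem wd_open : IsOpen (Wd (f.D Rs v.Lv) f.R) := by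
  obtain ⟨L, c1, t, -⟩ := tzz o hs
  have e : f.R = f.z.R1 + 9 / 4 := rfl
  exact (t.dk g.op g.lw (R := f.R) (by linarith [o.nu.r1.2.2.2.1]) (by linarith)).wop

include hb

/-- The factor is 1 before the seam. -/
theorem ov : ∀ x ∈ Om (Wd (f.D Rs v.Lv) f.R), f.us - 1 / 16 < x.1 → x.1 < f.us →
    al4 f.R (f.h v) (f.phi v) (pj (anc f.R x)) = 1 := fun x hx u1 u2 => by
  obtain ⟨a0, -, -, -, a1, -, a2, a3, a4⟩ := nums o
  have e : f.R = f.z.R1 + 9 / 4 := rfl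
  have m : anc f.R x ∈ Om (f.D Rs v.Lv) := hx
  have p := p6 o m
  obtain ⟨s1, s2⟩ := sw_of o hs hb m (show f.z.R1 ≤ f.R by linarith) (seam o p le_rfl u1)
  obtain ⟨W, l, k⟩ := g.lv _ s2
  have fl := (g.fst _ s1 s2.2).self_of_nhds.2
  have eu := (((P354CS.pre f.z.M f.z.a f.A f.B o.nu.sA o.nu.sB).2.2.2.2.2.2.2 (sub o) o.nu.th).2 _ p
    (show 6 * f.z.M ≤ f.R by linarith)).2.2 _ o.nu.nrm
  have e2 : ps f.z.M f.A f.B (anc f.R x) = f.S (pj (anc f.R x)) := ps_st p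
  refine al4_one (th o) (by linarith) hx.2 ⟨W, l.isOpen, l.met, e2 ▸ k⟩ ?_
    (phi_id (show x.1 < f.ti by linarith))
  rw [e2]
  refine fl ((show f.z.R1 + 2 ≤ f.R by linarith).trans_eq (rd_S p).symm) ?_
  have e3 : ur f.z.M f.z.a (f.S (pj (anc f.R x))) = x.1 - f.k := e2 ▸ eu
  exact e3.trans_le (show _ ≤ -(f.z.R1 + 2) - tb f.z.M f.z.a (f.z.R1 + 2) by linarith [o.nu.us2])

theorem al_ev (hx : x ∈ Om (Wd (f.D Rs v.Lv) f.R)) (u : f.us ≤ x.1) :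
    f.al v =ᶠ[𝓝 x] fun y => al4 f.R (f.h v) (f.phi v) (pj (anc f.R y)) :=
  alf_ev (wd_open o hs g) (by norm_num) (ov o hs hb g) hx u

end

end Vale.Agent.P354NU
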