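import Vale.Agent.P354NU.Zc

/-! ZON from its parts. -/

open scoped ContDiff
open Set Filter Topology

namespace Vale.Agent.P354NU

open Vale.Agent.P354XG (E6)
open Vale.Agent.P354XO (Om)
open Vale.Agent.P354YO (bd_mono)
open Vale.Agent.P354CQ (cut anc anc_sm)
open Vale.Agent.P354MG

variable {f : Fx} {v : Va} {Rs Rb ρ ρ' u μ ν E e0 K K' : ℝ} {k N : ℕ} {x : E6} {C : ℝ → ℝ}

theorem wn_mono (h : Wn f v Rs k e0 ρ u μ) (l : ρ' ≤ ρ) : Wn f v Rs k e0 ρ' u μ :=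
  ⟨h.nn, h.early, fun j y hy => h.eta j y ⟨hy.1, hy.2.1, hy.2.2.trans l⟩, h.par⟩

/-- The a priori window. -/
theorem wn_all (I : In f v Rs Rb k N C E e0) (hs : f.z.R1 ≤ Rs) (e : e0 ≤ E) (h1 : 2 ≤ K)
    (h2 : C Rs + 1 ≤ K) (u : ℝ) : Wn f v Rs k e0 Rs u (K * E) := by
  have E0 : 0 ≤ E := I.sz.1
  have a := mul_le_mul_of_nonneg_right h1 E0
  refine ⟨by linarith, fun _ => by linarith [I.par], fun _ y hy _ =>
    (I.sz.2.2 y hy trivial).1.trans (pow_le_pow_left₀ E0 (by linarith) 2), fun _ t m _ => ?_⟩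
  have b := (I.ny.pt Rs hs (t, f.z.R1, 1, 0) ⟨m, by simp⟩ hs E E
    ⟨E0, le_rfl, fun y hy _ => I.sz.2.2 y hy trivial⟩).2.1
  have t2 : ‖(f.z.M, f.z.a) - (v.M, v.a)‖ ≤ E := norm_sub_rev (_ : ℝ × ℝ) _ ▸
    (max_le_add_of_nonneg (abs_nonneg _) (abs_nonneg _)).trans I.par
  linarith [norm_sub_le_norm_sub_add_norm_sub (v.pq t) (f.z.M, f.z.a) (v.M, v.a),
    mul_le_mul_of_nonneg_right h2 E0]

theorem Qc.mono (h : Qc f N K v Rs Rb x μ ν) (l : K ≤ K') (m : 0 ≤ μ) (n : 0 ≤ ν) :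
    Qc f N K' v Rs Rb x μ ν :=
  ⟨h.nid.mono le_rfl (by gcongr), fun t => bd_mono (h.bd t) le_rfl (by gcongr),
    fun t => (h.df t).mono le_rfl (by gcongr)⟩

theorem Qr.mono (h : Qr f N K v Rs Rb x μ ν) (l : K ≤ K') (m : 0 ≤ μ) (n : 0 ≤ ν) :
    Qr f N K' v Rs Rb x μ ν := fun r => ⟨(h r).1, (h r).2.imp fun _ j =>
  ⟨j.1.trans (by gcongr), j.2.1.mono le_rfl (by gcongr),
    fun s t => (j.2.2 s t).mono le_rfl (by gcongr)⟩⟩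

/-- **ZON.** -/
theorem zon_of (hC : ZC) (hR : ZR) (hT : ZT) : ZON := by
  intro f o n
  obtain ⟨N, hN, hR⟩ := hR f o (n + 1)
  refine ⟨N, fun k C mC => ?_⟩
  obtain ⟨Kt, et, et0, hT⟩ := hT f o N C mC
  obtain ⟨K, mK, K1, hK⟩ := mono_env (P := fun ρ K e => Al f N C ρ e fun v Rs Rb x μ ν =>
    Qc f N K v Rs Rb x μ ν ∧ Qr f (n + 1) K v Rs Rb x μ ν) (fun ρ => by
      obtain ⟨K1, -, e1, p1, h1⟩ := hC f o N C mC ρ
      obtain ⟨K2, e2, p2, h2⟩ := hR C mC ρ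
      exact ⟨max K1 K2, min e1 e2, lt_min p1 p2,
        fun ρ' a1 Rs Rb v k E e0 a2 a3 I x a4 a5 μ ν a6 a7 a8 W =>
        ⟨(h1 ρ' a1 Rs Rb v k E e0 a2 a3 I x a4 a5 μ ν a6 a7 (a8.trans (min_le_left _ _)) W).mono
          (le_max_left _ _) W.nn (W.nn.trans a6),
        (h2 ρ' a1 Rs Rb v k E e0 a2 a3 I x a4 a5 μ ν a6 a7 (a8.trans (min_le_right _ _)) W).mono
          (le_max_right _ _) W.nn (W.nn.trans a6)⟩⟩)
    fun ρ K e ρ2 K2 e2 h l1 l2 _ l3 ρ' a1 Rs Rb v k E e0 a2 a3 I x a4 a5 μ ν a6 a7 a8 W =>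
      (h ρ' ⟨a1.1, a1.2.trans l1⟩ Rs Rb v k E e0 a2 a3 I x a4 a5 μ ν a6 a7 (a8.trans l3) W).imp
        (fun j => j.mono l2 W.nn (W.nn.trans a6)) fun j => j.mono l2 W.nn (W.nn.trans a6)
  have c2 : ∀ ρ, 2 ≤ max (C ρ + 1) 2 := fun _ => le_max_right _ _
  have kt := abs_nonneg Kt
  have lo : ∀ ρ, K ρ ≤ K ρ * max (C ρ + 1) 2 + |Kt| := fun ρ => by nlinarith [K1 ρ, c2 ρ]
  refine ⟨fun ρ => K ρ * max (C ρ + 1) 2 + |Kt|, fun ρ σ l => add_le_add (mul_le_mul (mK l)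
    (max_le_max (by linarith [mC l]) le_rfl) (by linarith [c2 ρ]) (by linarith [K1 σ])) le_rfl,
    fun ρ => (K1 ρ).trans (lo ρ), fun Rs hs => ?_⟩
  obtain ⟨e, e0, hK⟩ := hK Rs
  have c0 : 0 < max (C Rs + 1) 2 := by linarith [c2 Rs]
  refine ⟨min (e / max (C Rs + 1) 2) et, by positivity, fun Rb hb v E hE e0 he I => ?_⟩
  have l1 : max (C Rs + 1) 2 * E ≤ e := (le_div_iff₀' c0).1 (hE.2.trans (min_le_left _ _))
  have l2 : E ≤ max (C Rs + 1) 2 * E := le_mul_of_one_le_left hE.1 (by linarith [c2 Rs])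
  have a : ∀ x ∈ Om (cut (f.D Rs v.Lv) Rs), _ := fun x hx =>
    hK Rs le_rfl Rs ⟨by linarith, le_rfl⟩ Rs Rb v k E e0 hs hb I x hx (le_of_lt hx.1.2) _ _ le_rfl l2
      l1 (wn_all I (by linarith) he.2 (c2 Rs) (le_max_left _ _) x.1)
  have b : ∀ ρ ≥ f.z.R1 + 3, ∀ x ∈ Om (cut (f.D Rs v.Lv) Rs), x.2.1 ≤ ρ → ∀ μ ≤ E,
      Wn f v Rs k e0 ρ x.1 μ → _ := fun ρ hρ x hx r μ l W =>
    hK (min ρ Rs) (min_le_right _ _) _ ⟨le_min (by linarith) (by linarith), le_rfl⟩ Rs Rb v k E e0 hs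
      hb I x hx (le_min r (le_of_lt hx.1.2)) μ E l le_rfl (l2.trans l1) (wn_mono W (min_le_left _ _))
  refine ⟨fun x hx => (a x hx).1.nid.mono hN (by nlinarith [mul_nonneg kt hE.1]), fun x hx => ?_,
    fun ρ hρ x hx r t μ l W => bd_mono ((b ρ hρ x hx r μ l W).1.bd t) (by omega)
      (mul_le_mul_of_nonneg_right ((mK (min_le_left _ _)).trans (lo ρ)) W.nn),
    fun ρ hρ x hx r' r μ l W => ?_, fun x hx r => (hT Rs Rb v k E e0 hs hb I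
      (hE.2.trans (min_le_right _ _)) x hx r).trans (by
        nlinarith [le_abs_self Kt, K1 f.z.R1, c2 f.z.R1])⟩
  · exact (((a (anc f.R x) ⟨⟨hx.1, show f.z.R1 + 9 / 4 < Rs by linarith⟩, hx.2⟩).2 le_rfl).1.comp x
      (anc_sm f.R).contDiffAt :)
  · obtain ⟨-, κ, k1, k2, k3⟩ := (b ρ hρ x hx r μ l W).2 r'
    have m := mul_le_mul_of_nonneg_right ((mK (min_le_left ρ Rs)).trans (lo ρ)) W.nn
    exact ⟨κ, k1.trans (mul_le_mul_of_nonneg_right ((mK (min_le_right _ _)).trans (lo Rs)) hE.1),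
      k2.mono le_rfl m, fun s t => (k3 s t).mono le_rfl m⟩

end Vale.Agent.P354NU
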